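import Vale.Agent.Results.P052.Dim63

/-!
# Borsuk's conjecture is false in dimension 63

The negation of the conjecture as it is usually stated: it is not true that every bounded subset of
`ℝ^63` of positive diameter is a union of `64` subsets of strictly smaller diameter.
-/

namespace Vale.Agent.Results.P052.ConjectureFails63

theorem result :
    ¬ ∀ Y : Set (EuclideanSpace ℝ (Fin 63)), Bornology.IsBounded Y → 0 < Metric.diam Y →
      ∃ P : Fin (63 + 1) → Set (EuclideanSpace ℝ (Fin 63)),
        Y = ⋃ i, P i ∧ ∀ i, Metric.diam (P i) < Metric.diam Y := by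
  intro h
  obtain ⟨X, _, hpos, hX⟩ := Vale.Agent.Results.P052.Dim63.result
  obtain ⟨P, hP, hlt⟩ := h (X : Set (EuclideanSpace ℝ (Fin 63))) X.finite_toSet.isBounded hpos
  obtain ⟨i, hi⟩ := hX P hP.le
  have hsub : P i ⊆ (X : Set (EuclideanSpace ℝ (Fin 63))) := by
    rw [hP]
    exact Set.subset_iUnion P i
  rw [Set.inter_eq_left.2 hsub] at hi
  exact absurd hi (hlt i).ne

end Vale.Agent.Results.P052.ConjectureFails63
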