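import Mathlib
import Vale.Agent.Lib.P052.Points

namespace Vale.Agent.Results.P052.Dim63

open Vale.Agent.Lib.P052

/-- Borsuk's conjecture fails in dimension `63`: there is a finite set `X` of at most `321` points
of `ℝ^63`, of positive diameter, such that whenever `X` is covered by `64 = 63 + 1` sets, one of
the pieces has the same diameter as `X`.  So `X` is not a union of `64` subsets of strictly smaller
diameter. -/
theorem result : ∃ X : Finset (EuclideanSpace ℝ (Fin 63)), X.card ≤ 321 ∧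
    0 < Metric.diam (X : Set (EuclideanSpace ℝ (Fin 63))) ∧
    ∀ P : Fin 64 → Set (EuclideanSpace ℝ (Fin 63)),
      (X : Set (EuclideanSpace ℝ (Fin 63))) ⊆ ⋃ i, P i →
      ∃ i, Metric.diam (P i ∩ (X : Set (EuclideanSpace ℝ (Fin 63)))) =
        Metric.diam (X : Set (EuclideanSpace ℝ (Fin 63))) := by
  classical
  obtain ⟨Z, D, hD, hle, hfar⟩ := config
  set X : Finset (EuclideanSpace ℝ (Fin 63)) := Finset.univ.image Z with hX
  have hmem : ∀ a, Z a ∈ X := fun a => Finset.mem_image_of_mem Z (Finset.mem_univ a)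
  have hbdd : Bornology.IsBounded (X : Set (EuclideanSpace ℝ (Fin 63))) :=
    X.finite_toSet.isBounded
  have hdiam : Metric.diam (X : Set (EuclideanSpace ℝ (Fin 63))) ≤ D := by
    apply Metric.diam_le_of_forall_dist_le hD.le
    intro x hx y hy
    rw [Finset.mem_coe, hX, Finset.mem_image] at hx hy
    obtain ⟨a, _, rfl⟩ := hx
    obtain ⟨b, _, rfl⟩ := hy
    exact hle a b
  have key : ∀ P : Fin 64 → Set (EuclideanSpace ℝ (Fin 63)),
      (X : Set (EuclideanSpace ℝ (Fin 63))) ⊆ ⋃ i, P i →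
      ∃ i, D ≤ Metric.diam (P i ∩ (X : Set (EuclideanSpace ℝ (Fin 63)))) := by
    intro P hP
    have hc : ∀ a, ∃ i, Z a ∈ P i := fun a => Set.mem_iUnion.1 (hP (hmem a))
    choose c hc using hc
    obtain ⟨i, hi⟩ := Fintype.exists_lt_card_fiber_of_mul_lt_card (f := c) (n := 5) (by simp)
    obtain ⟨a, ha, b, hb, hab, hadj⟩ := six_far _ hi
    refine ⟨i, ?_⟩
    rw [← hfar a b hab hadj]
    have ha' : c a = i := (Finset.mem_filter.1 ha).2
    have hb' : c b = i := (Finset.mem_filter.1 hb).2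
    apply Metric.dist_le_diam_of_mem (hbdd.subset Set.inter_subset_right)
    · exact ⟨ha' ▸ hc a, hmem a⟩
    · exact ⟨hb' ▸ hc b, hmem b⟩
  refine ⟨X, ?_, ?_, ?_⟩
  · refine le_trans Finset.card_image_le ?_
    simp
  · obtain ⟨i, hi⟩ := key (fun _ => Set.univ) (fun x _ => Set.mem_iUnion.2 ⟨0, Set.mem_univ x⟩)
    have h := Metric.diam_mono
      (Set.inter_subset_right : Set.univ ∩ (X : Set (EuclideanSpace ℝ (Fin 63))) ⊆ X) hbdd
    linarith
  · intro P hP
    obtain ⟨i, hi⟩ := key P hP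
    exact ⟨i, le_antisymm (Metric.diam_mono Set.inter_subset_right hbdd) (hdiam.trans hi)⟩

end Vale.Agent.Results.P052.Dim63
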