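import Mathlib
import Vale.Agent.Lib.P052.Geometry
import Vale.Agent.Lib.P052.Coloring

namespace Vale.Agent.Results.P052.FewPoints

open Vale.Agent.Lib.P052

/-- Borsuk's conjecture holds, in every dimension `d`, for all sets of at most `d + 4` points:
such a set (of positive diameter) is the union of `d + 1` subsets of strictly smaller diameter. -/
theorem result (d : ℕ) (X : Finset (EuclideanSpace ℝ (Fin d))) (hcard : X.card ≤ d + 4)
    (hpos : 0 < Metric.diam (X : Set (EuclideanSpace ℝ (Fin d)))) :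
    ∃ f : EuclideanSpace ℝ (Fin d) → Fin (d + 1),
      ∀ i : Fin (d + 1), Metric.diam {x | x ∈ X ∧ f x = i} <
        Metric.diam (X : Set (EuclideanSpace ℝ (Fin d))) := by
  classical
  set D := Metric.diam (X : Set (EuclideanSpace ℝ (Fin d))) with hD
  have hbdd : Bornology.IsBounded (X : Set (EuclideanSpace ℝ (Fin d))) := X.finite_toSet.isBounded
  have hle : ∀ x ∈ X, ∀ y ∈ X, dist x y ≤ D := fun x hx y hy =>
    Metric.dist_le_diam_of_mem hbdd hx hy
  set far : EuclideanSpace ℝ (Fin d) → EuclideanSpace ℝ (Fin d) → Prop := fun x y => dist x y = D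
    with hfar
  have hsymm : ∀ x y, far x y → far y x := by
    intro x y h
    simp only [hfar] at h ⊢
    rw [dist_comm]; exact h
  have hB : B far X (d + 1) := by
    intro S hS hScard a ha b hb hab
    by_contra hcon
    apply no_almost_simplex S (by simp [hScard]) D hpos a b ha hb hab (hle a (hS ha) b (hS hb))
    intro x hx y hy hxy
    by_contra h
    apply hcon
    refine ⟨x, hx, y, hy, hxy, fun h' => h (Or.inr (Or.inr h')), fun h' => h (Or.inl h'),
      fun h' => h (Or.inr (Or.inl h'))⟩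
  obtain ⟨c, hc1, hc2⟩ := colorable_of_B far hsymm X (d + 1) (by omega) (by omega) hB
  refine ⟨fun x => if h : c x < d + 1 then ⟨c x, h⟩ else 0, ?_⟩
  intro i
  set Y : Finset (EuclideanSpace ℝ (Fin d)) :=
    X.filter (fun x => (if h : c x < d + 1 then (⟨c x, h⟩ : Fin (d + 1)) else 0) = i) with hY
  have hset : {x | x ∈ X ∧ (if h : c x < d + 1 then (⟨c x, h⟩ : Fin (d + 1)) else 0) = i}
      = (Y : Set (EuclideanSpace ℝ (Fin d))) := by
    ext x; simp [hY]
  rw [hset]
  rcases Y.eq_empty_or_nonempty with hemp | hne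
  · rw [hemp]; simpa using hpos
  obtain ⟨p, hp, hmax⟩ := Finset.exists_max_image (Y ×ˢ Y) (fun p => dist p.1 p.2)
    (hne.product hne)
  have hdiam : Metric.diam (Y : Set (EuclideanSpace ℝ (Fin d))) ≤ dist p.1 p.2 := by
    apply Metric.diam_le_of_forall_dist_le dist_nonneg
    intro x hx y hy
    exact hmax (x, y) (Finset.mem_product.2 ⟨hx, hy⟩)
  refine lt_of_le_of_lt hdiam ?_
  rw [Finset.mem_product] at hp
  obtain ⟨hp1, hp2⟩ := hp
  rw [hY, Finset.mem_filter] at hp1 hp2
  by_cases heq : p.1 = p.2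
  · rw [heq, dist_self]; exact hpos
  refine lt_of_le_of_ne (hle _ hp1.1 _ hp2.1) ?_
  intro hfarp
  apply hc2 p.1 hp1.1 p.2 hp2.1 heq hfarp
  have h1 := hp1.2
  have h2 := hp2.2
  rw [dif_pos (hc1 _ hp1.1)] at h1
  rw [dif_pos (hc1 _ hp2.1)] at h2
  have := h1.trans h2.symm
  exact Fin.mk.inj_iff.1 this

end Vale.Agent.Results.P052.FewPoints
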