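import Mathlib
import Vale.Agent.Results.P052.Dim63
import Vale.Agent.Results.P052.ConjectureFails63
import Vale.Agent.Results.P052.FewPoints

namespace Vale.Agent.Results.P052.Combined

/-- (1) Borsuk's conjecture is false in dimension `63`.  (2) A witness: a set of at most `321` points
of `ℝ^63` such that in every covering by `64` sets some piece has full diameter.  (3) In every
dimension `d` the conjecture holds for all sets of at most `d + 4` points. -/
theorem result :
    (¬ ∀ Y : Set (EuclideanSpace ℝ (Fin 63)), Bornology.IsBounded Y → 0 < Metric.diam Y →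
      ∃ P : Fin (63 + 1) → Set (EuclideanSpace ℝ (Fin 63)),
        Y = ⋃ i, P i ∧ ∀ i, Metric.diam (P i) < Metric.diam Y) ∧
    (∃ X : Finset (EuclideanSpace ℝ (Fin 63)), X.card ≤ 321 ∧
      0 < Metric.diam (X : Set (EuclideanSpace ℝ (Fin 63))) ∧
      ∀ P : Fin 64 → Set (EuclideanSpace ℝ (Fin 63)),
        (X : Set (EuclideanSpace ℝ (Fin 63))) ⊆ ⋃ i, P i →
        ∃ i, Metric.diam (P i ∩ (X : Set (EuclideanSpace ℝ (Fin 63)))) =
          Metric.diam (X : Set (EuclideanSpace ℝ (Fin 63)))) ∧
    (∀ (d : ℕ) (X : Finset (EuclideanSpace ℝ (Fin d))), X.card ≤ d + 4 →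
      0 < Metric.diam (X : Set (EuclideanSpace ℝ (Fin d))) →
      ∃ f : EuclideanSpace ℝ (Fin d) → Fin (d + 1),
        ∀ i : Fin (d + 1), Metric.diam {x | x ∈ X ∧ f x = i} <
          Metric.diam (X : Set (EuclideanSpace ℝ (Fin d)))) :=
  ⟨Vale.Agent.Results.P052.ConjectureFails63.result, Vale.Agent.Results.P052.Dim63.result,
    fun d X hcard hpos => Vale.Agent.Results.P052.FewPoints.result d X hcard hpos⟩

end Vale.Agent.Results.P052.Combined
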